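import Vale.Agent.P248.Defs

/-!
# Polar bodies, sections and shadows
-/

namespace Vale.Agent.P248

open MeasureTheory Set Metric

variable {n : ℕ}

lemma sum_insertNth (i : Fin (n + 1)) (y : Fin (n + 1) → ℝ) (t : ℝ) (z : Fin n → ℝ) :
    ∑ j, y j * (i.insertNth t z : Fin (n + 1) → ℝ) j = y i * t + ∑ j, y (i.succAbove j) * z j := by
  rw [Fin.sum_univ_succAbove _ i]
  simp

/-- Forgetting the `i`-th coordinate. -/
def drop (i : Fin (n + 1)) (p : Fin (n + 1) → ℝ) : Fin n → ℝ := fun j => p (i.succAbove j)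

lemma continuous_drop (i : Fin (n + 1)) : Continuous (drop i) := by
  unfold drop
  fun_prop

lemma continuous_insertNth' (i : Fin (n + 1)) :
    Continuous fun q : ℝ × (Fin n → ℝ) => (i.insertNth q.1 q.2 : Fin (n + 1) → ℝ) :=
  Continuous.finInsertNth i continuous_fst continuous_snd

/-- The volume of a set by its slices of fixed `i`-th coordinate. -/
lemma volume_eq_slices (i : Fin (n + 1)) {S : Set (Fin (n + 1) → ℝ)} (hS : MeasurableSet S) :
    volume S = ∫⁻ t : ℝ, volume {z : Fin n → ℝ | i.insertNth t z ∈ S} := by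
  have hm := volume_preserving_piFinSuccAbove (fun _ : Fin (n + 1) => ℝ) i
  rw [← hm.symm.measure_preimage hS.nullMeasurableSet, Measure.volume_eq_prod, Measure.prod_apply
    ((MeasurableEquiv.piFinSuccAbove (fun _ : Fin (n + 1) => ℝ) i).symm.measurable hS)]
  rfl

/-- The volume of a set by its lines in the direction of the `i`-th coordinate. -/
lemma volume_eq_lines (i : Fin (n + 1)) {S : Set (Fin (n + 1) → ℝ)} (hS : MeasurableSet S) :
    volume S = ∫⁻ z : Fin n → ℝ, volume {t : ℝ | i.insertNth t z ∈ S} := by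
  have hm := volume_preserving_piFinSuccAbove (fun _ : Fin (n + 1) => ℝ) i
  rw [← hm.symm.measure_preimage hS.nullMeasurableSet, Measure.volume_eq_prod,
    Measure.prod_apply_symm
    ((MeasurableEquiv.piFinSuccAbove (fun _ : Fin (n + 1) => ℝ) i).symm.measurable hS)]
  rfl

/-- An origin-symmetric convex body. -/
structure SymBody (n : ℕ) (K : Set (Fin n → ℝ)) : Prop where
  compact : IsCompact K
  convex : Convex ℝ K
  symm : ∀ x ∈ K, -x ∈ K
  interior_ne : (interior K).Nonempty

variable {K : Set (Fin n → ℝ)}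

lemma SymBody.exists_ball (h : SymBody n K) : ∃ r > 0, ball 0 r ⊆ K := by
  obtain ⟨x, hx⟩ := h.interior_ne
  obtain ⟨r, hr, hb⟩ := Metric.isOpen_iff.1 isOpen_interior x hx
  refine ⟨r, hr, fun v hv => ?_⟩
  rw [mem_ball_zero_iff] at hv
  have h1 : x + v ∈ K := interior_subset (hb (by simpa [dist_eq_norm] using hv))
  have h2 : -(x - v) ∈ K := h.symm _ (interior_subset (hb (by simpa [dist_eq_norm] using hv)))
  have := h.convex h1 h2 (show (0 : ℝ) ≤ 1 / 2 by norm_num) (show (0 : ℝ) ≤ 1 / 2 by norm_num)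
    (by norm_num)
  convert this using 1
  module

lemma SymBody.zero_mem (h : SymBody n K) : 0 ∈ K := by
  obtain ⟨r, hr, hb⟩ := h.exists_ball
  exact hb (mem_ball_self hr)

lemma convex_polarBody (K : Set (Fin n → ℝ)) : Convex ℝ (polarBody K) := by
  intro y hy z hz a b ha hb hab x hx
  have : ∑ i, (a • y + b • z) i * x i = a * ∑ i, y i * x i + b * ∑ i, z i * x i := by
    rw [Finset.mul_sum, Finset.mul_sum, ← Finset.sum_add_distrib]
    exact Finset.sum_congr rfl fun i _ => by simp; ring
  rw [this]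
  calc a * ∑ i, y i * x i + b * ∑ i, z i * x i ≤ a * 1 + b * 1 := by
        gcongr
        · exact hy x hx
        · exact hz x hx
    _ = 1 := by linarith

lemma isClosed_polarBody (K : Set (Fin n → ℝ)) : IsClosed (polarBody K) := by
  have : polarBody K = ⋂ x ∈ K, {y | ∑ i, y i * x i ≤ 1} := by
    ext y
    simp [polarBody]
  rw [this]
  exact isClosed_biInter fun x _ => isClosed_le (by fun_prop) continuous_const

lemma SymBody.isCompact_polar (h : SymBody n K) : IsCompact (polarBody K) := by
  obtain ⟨r, hr, hb⟩ := h.exists_ball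
  refine Metric.isCompact_of_isClosed_isBounded (isClosed_polarBody K) ?_
  refine isBounded_closedBall.subset (fun y hy => ?_ : polarBody K ⊆ closedBall 0 (2 / r))
  rw [mem_closedBall_zero_iff, pi_norm_le_iff_of_nonneg (by positivity)]
  intro i
  have hmem : ∀ a : ℝ, |a| < r → (Pi.single i a : Fin n → ℝ) ∈ K := fun a ha => hb (by
    rw [mem_ball_zero_iff, pi_norm_lt_iff hr]
    intro j
    rcases eq_or_ne j i with rfl | hj
    · simpa using ha
    · simpa [Pi.single_eq_of_ne hj] using hr)
  have e : ∀ a : ℝ, ∑ j, y j * (Pi.single i a : Fin n → ℝ) j = y i * a := fun a => by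
    simp [Pi.single_apply]
  have h1 := hy _ (hmem (r / 2) (by rw [abs_of_pos (by positivity)]; linarith))
  have h2 := hy _ (hmem (-(r / 2)) (by rw [abs_neg, abs_of_pos (by positivity)]; linarith))
  rw [e] at h1 h2
  rw [Real.norm_eq_abs, le_div_iff₀ hr]
  rcases abs_cases (y i) with ⟨ha, -⟩ | ⟨ha, -⟩ <;> rw [ha] <;> nlinarith

lemma SymBody.sect {K : Set (Fin (n + 1) → ℝ)} (h : SymBody (n + 1) K) (i : Fin (n + 1)) :
    SymBody n (Vale.Agent.P248.sect i K) := by
  have hc : Continuous fun z : Fin n → ℝ => (i.insertNth (0 : ℝ) z : Fin (n + 1) → ℝ) :=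
    (continuous_insertNth' i).comp (by fun_prop : Continuous fun z : Fin n → ℝ => ((0 : ℝ), z))
  refine ⟨?_, ?_, fun z hz => ?_, ?_⟩
  · refine IsCompact.of_isClosed_subset (h.compact.image (continuous_drop i))
      (h.compact.isClosed.preimage hc) fun z hz => ⟨_, hz, ?_⟩
    funext j
    simp [drop]
  · intro z hz w hw a b ha hb hab
    have := h.convex (hz : i.insertNth 0 z ∈ K) (hw : i.insertNth 0 w ∈ K) ha hb hab
    show i.insertNth 0 (a • z + b • w) ∈ K
    convert this using 1
    funext j
    refine Fin.succAboveCases i ?_ (fun k => ?_) j <;> simp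
  · show i.insertNth 0 (-z) ∈ K
    convert h.symm _ (hz : i.insertNth 0 z ∈ K) using 1
    funext j
    refine Fin.succAboveCases i ?_ (fun k => ?_) j <;> simp
  · obtain ⟨r, hr, hb⟩ := h.exists_ball
    have hsub : ball (0 : Fin n → ℝ) r ⊆ Vale.Agent.P248.sect i K := fun z hz => by
      show i.insertNth 0 z ∈ K
      refine hb ?_
      rw [mem_ball_zero_iff, pi_norm_lt_iff hr] at hz ⊢
      intro j
      refine Fin.succAboveCases i ?_ (fun k => ?_) j
      · simpa using hr
      · simpa using hz k
    exact ⟨0, interior_maximal hsub isOpen_ball (mem_ball_self hr)⟩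

/-- The polar of a section lies in the shadow of the polar. -/
lemma polar_sect_subset {K : Set (Fin (n + 1) → ℝ)} (h : SymBody (n + 1) K) (i : Fin (n + 1)) :
    polarBody (Vale.Agent.P248.sect i K) ⊆ drop i '' polarBody K := by
  intro z hz
  by_contra hnot
  have hlin : ∀ y y' : Fin (n + 1) → ℝ, ∀ a b : ℝ, drop i (a • y + b • y') = a • drop i y + b • drop i y' :=
    fun y y' a b => funext fun j => by simp [drop]
  have hcv : Convex ℝ (drop i '' polarBody K) := by
    rintro _ ⟨y, hy, rfl⟩ _ ⟨y', hy', rfl⟩ a b ha hb hab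
    exact ⟨a • y + b • y', convex_polarBody K hy hy' ha hb hab, hlin y y' a b⟩
  obtain ⟨f, u, hfu, huz⟩ := geometric_hahn_banach_closed_point hcv
    ((h.isCompact_polar.image (continuous_drop i)).isClosed) hnot
  have h0 : (0 : Fin n → ℝ) ∈ drop i '' polarBody K :=
    ⟨0, fun x _ => by simp, funext fun j => rfl⟩
  have hu : 0 < u := by simpa using hfu 0 h0
  set w : Fin n → ℝ := fun j => f (Pi.single j 1) / u with hw
  have hfw : ∀ v : Fin n → ℝ, ∑ j, v j * w j = f v / u := fun v => by
    conv_rhs => rw [pi_eq_sum_univ' v, map_sum]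
    rw [Finset.sum_div]
    refine Finset.sum_congr rfl fun j _ => ?_
    rw [map_smul, smul_eq_mul, hw, mul_div_assoc]
  have hwK : i.insertNth 0 w ∈ K := by
    by_contra hwn
    obtain ⟨g, c, hgc, hcw⟩ := geometric_hahn_banach_closed_point h.convex h.compact.isClosed hwn
    have hc : 0 < c := by simpa using hgc 0 h.zero_mem
    set y : Fin (n + 1) → ℝ := fun j => g (Pi.single j 1) / c with hy
    have hgy : ∀ v : Fin (n + 1) → ℝ, ∑ j, y j * v j = g v / c := fun v => by
      conv_rhs => rw [pi_eq_sum_univ' v, map_sum]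
      rw [Finset.sum_div]
      refine Finset.sum_congr rfl fun j _ => ?_
      rw [map_smul, smul_eq_mul, hy, mul_div_assoc, mul_comm]
    have hyP : y ∈ polarBody K := fun x hx => by
      rw [hgy, div_le_one hc]
      exact (hgc x hx).le
    have h1 : 1 < ∑ j, y j * (i.insertNth 0 w : Fin (n + 1) → ℝ) j := by
      rw [hgy, one_lt_div hc]
      exact hcw
    rw [sum_insertNth, mul_zero, zero_add] at h1
    have h2 := hfw (drop i y)
    have h3 := hfu _ ⟨y, hyP, rfl⟩
    have h4 : f (drop i y) / u < 1 := (div_lt_one hu).2 h3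
    simp only [drop] at h2 h4
    linarith
  have h5 := hz w hwK
  rw [hfw, div_le_one hu] at h5
  linarith

end Vale.Agent.P248
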