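import Vale.Agent.P248.Basic

/-!
# A body containing a box is large compared with its shadows
-/

namespace Vale.Agent.P248

open MeasureTheory Set Metric Filter
open scoped Topology

variable {n : ℕ}

/-- Sweeping in a coordinate direction adds at least length times shadow. -/
lemma grow (i : Fin (n + 1)) {M : Set (Fin (n + 1) → ℝ)} (hM : IsCompact M) {a : ℝ} (ha : 0 ≤ a) :
    IsCompact ((fun q : (Fin (n + 1) → ℝ) × ℝ => q.1 + q.2 • (Pi.single i 1 : Fin (n + 1) → ℝ)) ''
      (M ×ˢ Icc (-a) a)) ∧
    volume M + ENNReal.ofReal (2 * a) * volume (drop i '' M) ≤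
      volume ((fun q : (Fin (n + 1) → ℝ) × ℝ => q.1 + q.2 • (Pi.single i 1 : Fin (n + 1) → ℝ)) ''
        (M ×ˢ Icc (-a) a)) := by
  set M' := (fun q : (Fin (n + 1) → ℝ) × ℝ => q.1 + q.2 • (Pi.single i 1 : Fin (n + 1) → ℝ)) ''
    (M ×ˢ Icc (-a) a) with hM'
  have hc : IsCompact M' := (hM.prod isCompact_Icc).image (by fun_prop)
  refine ⟨hc, ?_⟩
  have hPm : MeasurableSet (drop i '' M) := (hM.image (continuous_drop i)).measurableSet
  rw [volume_eq_lines i hM.measurableSet, volume_eq_lines i hc.measurableSet,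
    ← setLIntegral_const, ← lintegral_indicator hPm, ← lintegral_add_right _
      (measurable_const.indicator hPm)]
  refine lintegral_mono fun z => ?_
  have hcont : Continuous fun t : ℝ => (i.insertNth t z : Fin (n + 1) → ℝ) :=
    (continuous_insertNth' i).comp (by fun_prop : Continuous fun t : ℝ => (t, z))
  set F := {t : ℝ | i.insertNth t z ∈ M} with hF
  set F' := {t : ℝ | i.insertNth t z ∈ M'} with hF'
  have hshift : ∀ t ∈ F, ∀ d ∈ Icc (-a) a, t + d ∈ F' := by
    intro t ht d hd
    refine ⟨(i.insertNth t z, d), ⟨ht, hd⟩, ?_⟩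
    funext j
    refine Fin.succAboveCases i ?_ (fun k => ?_) j <;> simp
  by_cases hz : z ∈ drop i '' M
  · rw [indicator_of_mem hz]
    obtain ⟨p, hp, rfl⟩ := hz
    have hne : F.Nonempty := ⟨p i, by
      show i.insertNth (p i) (drop i p) ∈ M
      have : (i.insertNth (p i) (drop i p) : Fin (n + 1) → ℝ) = p := by
        funext j
        refine Fin.succAboveCases i ?_ (fun k => ?_) j <;> simp [drop]
      rwa [this]⟩
    have hFc : IsCompact F := by
      refine IsCompact.of_isClosed_subset (hM.image (continuous_apply i)) (hM.isClosed.preimage hcont)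
        fun t ht => ⟨_, ht, by simp⟩
    have hhi := hFc.sSup_mem hne
    have hlo := hFc.sInf_mem hne
    have hle : ∀ t ∈ F, sInf F ≤ t ∧ t ≤ sSup F := fun t ht =>
      ⟨csInf_le hFc.bddBelow ht, le_csSup hFc.bddAbove ht⟩
    have hsub : (Ico (sInf F - a) (sInf F) ∪ F) ∪ Ioc (sSup F) (sSup F + a) ⊆ F' := by
      rintro t ((ht | ht) | ht)
      · have := hshift _ hlo (t - sInf F) ⟨by linarith [ht.1], by linarith [ht.2]⟩
        rwa [add_sub_cancel] at this
      · have := hshift _ ht 0 ⟨by linarith, ha⟩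
        rwa [add_zero] at this
      · have := hshift _ hhi (t - sSup F) ⟨by linarith [ht.1], by linarith [ht.2]⟩
        rwa [add_sub_cancel] at this
    refine le_trans ?_ (measure_mono hsub)
    have hd1 : Disjoint (Ico (sInf F - a) (sInf F)) F :=
      disjoint_left.2 fun t ht hF => not_lt.2 (hle t hF).1 ht.2
    have hd2 : Disjoint (Ico (sInf F - a) (sInf F) ∪ F) (Ioc (sSup F) (sSup F + a)) := by
      refine disjoint_left.2 fun t ht ht2 => ?_
      rcases ht with ht | ht
      · linarith [ht.2, ht2.1, (hle _ hhi).1]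
      · linarith [(hle t ht).2, ht2.1]
    rw [measure_union hd2 measurableSet_Ioc, measure_union hd1 hFc.measurableSet, Real.volume_Ico,
      Real.volume_Ioc, sub_sub_cancel, add_sub_cancel_left, two_mul, ENNReal.ofReal_add ha ha]
    exact le_of_eq (by ring)
  · rw [indicator_of_notMem hz, add_zero]
    exact measure_mono fun t ht => by simpa using hshift t ht 0 ⟨by linarith, ha⟩

/-- A convex body containing the box with half-sides `c` has volume at least twice the average of
`c i` times its `i`-th shadow. -/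
lemma box_le {L : Set (Fin (n + 1) → ℝ)} (hL : IsCompact L) (hLc : Convex ℝ L) {c : Fin (n + 1) → ℝ}
    (hc : ∀ i, 0 ≤ c i) (hbox : ∀ v : Fin (n + 1) → ℝ, (∀ i, |v i| ≤ c i) → v ∈ L) :
    2 * ∑ i, c i * (volume (drop i '' L)).toReal ≤ (n + 1 : ℝ) * (volume L).toReal := by
  classical
  have hgrow : ∀ t : ℝ, 0 < t → ∀ s : Finset (Fin (n + 1)), ∃ M, IsCompact M ∧ L ⊆ M ∧
      (∀ p ∈ M, ∃ y ∈ L, ∃ w : Fin (n + 1) → ℝ,
        (∀ i, |w i| ≤ t * c i) ∧ (∀ i, i ∉ s → w i = 0) ∧ p = y + w) ∧
      (volume L).toReal + 2 * t * ∑ i ∈ s, c i * (volume (drop i '' L)).toReal ≤ (volume M).toReal := by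
    intro t ht s
    induction s using Finset.induction_on with
    | empty =>
      exact ⟨L, hL, subset_rfl, fun p hp => ⟨p, hp, 0,
        fun i => by simpa using mul_nonneg ht.le (hc i), fun i _ => rfl, by simp⟩, by simp⟩
    | insert i s his ih =>
      obtain ⟨M, hM, hLM, hMw, hMv⟩ := ih
      have ha : 0 ≤ t * c i := mul_nonneg ht.le (hc i)
      obtain ⟨hc', hv⟩ := grow i hM ha
      refine ⟨_, hc', fun p hp => ⟨(p, 0), ⟨hLM hp, by constructor <;> linarith⟩, by simp⟩, ?_, ?_⟩
      · rintro _ ⟨⟨p, d⟩, ⟨hp, hd⟩, rfl⟩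
        obtain ⟨y, hy, w, hw, hw0, rfl⟩ := hMw p hp
        refine ⟨y, hy, w + d • (Pi.single i 1 : Fin (n + 1) → ℝ), fun j => ?_, fun j hj => ?_, add_assoc _ _ _⟩
        · rcases eq_or_ne j i with rfl | hji
          · simpa [hw0 j his] using abs_le.2 hd
          · simpa [Pi.single_eq_of_ne hji] using hw j
        · rw [Finset.mem_insert, not_or] at hj
          simp [Pi.single_eq_of_ne hj.1, hw0 j hj.2]
      · have h1 := ENNReal.toReal_mono hc'.measure_lt_top.ne hv
        have hfin : volume (drop i '' M) ≠ ⊤ := (hM.image (continuous_drop i)).measure_lt_top.ne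
        rw [ENNReal.toReal_add hM.measure_lt_top.ne (ENNReal.mul_ne_top ENNReal.ofReal_ne_top hfin),
          ENNReal.toReal_mul, ENNReal.toReal_ofReal (by positivity)] at h1
        have h2 : (volume (drop i '' L)).toReal ≤ (volume (drop i '' M)).toReal :=
          ENNReal.toReal_mono hfin (measure_mono (image_mono hLM))
        have h3 := mul_le_mul_of_nonneg_left h2 (by positivity : 0 ≤ 2 * (t * c i))
        rw [Finset.sum_insert his]
        linarith
  have hineq : ∀ t : ℝ, 0 < t → 2 * ∑ i, c i * (volume (drop i '' L)).toReal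
      ≤ ((1 + t) ^ (n + 1) - 1) / t * (volume L).toReal := by
    intro t ht
    obtain ⟨M, hM, -, hMw, hMv⟩ := hgrow t ht Finset.univ
    have hsub : M ⊆ (fun p => (1 + t) • p) '' L := by
      intro p hp
      obtain ⟨y, hy, w, hw, -, rfl⟩ := hMw p hp
      have hv : (1 / t) • w ∈ L := hbox _ fun i => by
        rw [Pi.smul_apply, smul_eq_mul, abs_mul, abs_of_pos (by positivity), div_mul_eq_mul_div,
          one_mul, div_le_iff₀ ht]
        linarith [hw i]
      refine ⟨(1 / (1 + t)) • y + (t / (1 + t)) • ((1 / t) • w),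
        hLc hy hv (by positivity) (by positivity) (by field_simp), ?_⟩
      funext i
      simp
      field_simp
    have h1 := ENNReal.toReal_mono ((hL.image (continuous_const_smul (1 + t))).measure_lt_top (μ := volume)).ne (measure_mono hsub)
    rw [image_smul, Measure.addHaar_smul_of_nonneg volume (by linarith), Module.finrank_fin_fun,
      ENNReal.toReal_mul, ENNReal.toReal_ofReal (by positivity)] at h1
    rw [div_mul_eq_mul_div, le_div_iff₀ ht]
    linarith
  have hd : HasDerivAt (fun t : ℝ => (1 + t) ^ (n + 1)) (n + 1 : ℝ) 0 := by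
    simpa using ((hasDerivAt_id' (0 : ℝ)).const_add 1).fun_pow (n + 1)
  have hlim := ((hasDerivAt_iff_tendsto_slope.1 hd).mono_left (nhdsGT_le_nhdsNE 0)).mul_const
    (volume L).toReal
  refine ge_of_tendsto hlim ?_
  filter_upwards [self_mem_nhdsWithin] with t ht
  have h := hineq t ht
  simpa [slope_def_field] using h

end Vale.Agent.P248
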