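import Vale.Agent.P248.Basic

/-!
# Cones over the coordinate sections inside an orthant piece
-/

namespace Vale.Agent.P248

open MeasureTheory Set Metric
open scoped Pointwise

variable {n : ℕ}

/-- The cone with apex `x` over a piece of the `i`-th coordinate section. -/
def coneOn (i : Fin (n + 1)) (x : Fin (n + 1) → ℝ) (S : Set (Fin n → ℝ)) : Set (Fin (n + 1) → ℝ) :=
  (fun q : ℝ × (Fin n → ℝ) => q.1 • x + (1 - q.1) • (i.insertNth (0 : ℝ) q.2 : Fin (n + 1) → ℝ)) ''
    (Icc 0 1 ×ˢ S)

lemma isCompact_coneOn (i : Fin (n + 1)) (x : Fin (n + 1) → ℝ) {S : Set (Fin n → ℝ)} (hS : IsCompact S) :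
    IsCompact (coneOn i x S) := by
  refine (isCompact_Icc.prod hS).image ?_
  have hc : Continuous fun q : ℝ × (Fin n → ℝ) => (i.insertNth (0 : ℝ) q.2 : Fin (n + 1) → ℝ) :=
    (continuous_insertNth' i).comp (by fun_prop : Continuous fun q : ℝ × (Fin n → ℝ) => ((0 : ℝ), q.2))
  fun_prop

/-- The volume of a cone is at least height times base over the dimension. -/
lemma coneOn_volume (i : Fin (n + 1)) (x : Fin (n + 1) → ℝ) {S : Set (Fin n → ℝ)} (hS : IsCompact S) :
    ENNReal.ofReal (|x i| / (n + 1)) * volume S ≤ volume (coneOn i x S) := by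
  rcases eq_or_ne (x i) 0 with hx | hx
  · simp [hx]
  set C := coneOn i x S with hC
  have hCm : MeasurableSet C := (isCompact_coneOn i x hS).measurableSet
  have hslice : ∀ s ∈ Icc (0 : ℝ) 1,
      ENNReal.ofReal ((1 - s) ^ n) * volume S ≤ volume {z | i.insertNth (s * x i) z ∈ C} := by
    intro s hs
    have hsub : (fun w : Fin n → ℝ => s • drop i x + w) '' ((1 - s) • S)
        ⊆ {z | i.insertNth (s * x i) z ∈ C} := by
      rintro _ ⟨_, ⟨w, hw, rfl⟩, rfl⟩
      refine ⟨(s, w), ⟨hs, hw⟩, ?_⟩
      funext j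
      refine Fin.succAboveCases i ?_ (fun k => ?_) j <;> simp [drop]
    refine le_trans (le_of_eq ?_) (measure_mono hsub)
    rw [show (fun w : Fin n → ℝ => s • drop i x + w) = (s • drop i x + ·) from rfl,
      image_add_left, measure_preimage_add, Measure.addHaar_smul_of_nonneg volume (by linarith [hs.2]),
      Module.finrank_fin_fun]
  calc ENNReal.ofReal (|x i| / (n + 1)) * volume S
      = ∫⁻ t in (fun s : ℝ => s * x i) '' Ioo 0 1, ENNReal.ofReal ((1 - t / x i) ^ n) * volume S := by
        rw [lintegral_mul_const _ (by fun_prop)]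
        congr 1
        rw [lintegral_image_eq_lintegral_abs_deriv_mul measurableSet_Ioo
          (fun s _ => ((hasDerivAt_id' s).mul_const (x i)).hasDerivWithinAt)
          (fun a _ b _ h => mul_right_cancel₀ hx h)]
        simp only [one_mul, mul_div_cancel_right₀ _ hx]
        rw [lintegral_const_mul _ (by fun_prop), ← ofReal_integral_eq_lintegral_ofReal,
          ← ENNReal.ofReal_mul (abs_nonneg _)]
        · congr 1
          rw [← integral_Ioc_eq_integral_Ioo, ← intervalIntegral.integral_of_le zero_le_one,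
            intervalIntegral.integral_comp_sub_left (fun u : ℝ => u ^ n) 1]
          simp
          ring
        · exact ((by fun_prop : Continuous fun s : ℝ => (1 - s) ^ n).continuousOn.integrableOn_Icc).mono_set
            Ioo_subset_Icc_self
        · filter_upwards [ae_restrict_mem measurableSet_Ioo] with s hs
          exact pow_nonneg (by linarith [hs.2]) n
    _ ≤ ∫⁻ t in (fun s : ℝ => s * x i) '' Ioo 0 1, volume {z | i.insertNth t z ∈ C} := by
        refine setLIntegral_mono' (measurableSet_Ioo.image_of_continuousOn_injOn (by fun_prop)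
          (fun a _ b _ h => mul_right_cancel₀ hx h)) ?_
        rintro _ ⟨s, hs, rfl⟩
        simp only [mul_div_cancel_right₀ _ hx]
        exact hslice s (Ioo_subset_Icc_self hs)
    _ ≤ ∫⁻ t, volume {z | i.insertNth t z ∈ C} := setLIntegral_le_lintegral _ _
    _ = volume C := (volume_eq_slices i hCm).symm

/-- The closed orthant with signs `ε`. -/
def orthant (ε : Fin n → Bool) : Set (Fin n → ℝ) :=
  {x | ∀ i, if ε i then 0 ≤ x i else x i ≤ 0}

/-- The sign of a direction of an orthant. -/
def sgnB (b : Bool) : ℝ := if b then 1 else -1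

lemma sgnB_sq (b : Bool) : sgnB b * sgnB b = 1 := by cases b <;> simp [sgnB]

lemma mem_orthant {ε : Fin n → Bool} {x : Fin n → ℝ} :
    x ∈ orthant ε ↔ ∀ i, 0 ≤ sgnB (ε i) * x i := by
  refine forall_congr' fun i => ?_
  cases ε i <;> simp [sgnB]

lemma isClosed_orthant (ε : Fin n → Bool) : IsClosed (orthant ε) := by
  have : orthant ε = ⋂ i, {x | 0 ≤ sgnB (ε i) * x i} := by
    ext x
    simp [mem_orthant]
  rw [this]
  exact isClosed_iInter fun i => isClosed_le continuous_const (by fun_prop)

lemma isCompact_orthantPart {K : Set (Fin n → ℝ)} (hK : IsCompact K) (ε : Fin n → Bool) :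
    IsCompact (orthantPart K ε) := hK.inter_right (isClosed_orthant ε)

/-- The cones over the section pieces fit disjointly in the orthant piece. -/
lemma cones_le {K : Set (Fin (n + 1) → ℝ)} (h : SymBody (n + 1) K) (ε : Fin (n + 1) → Bool)
    {x : Fin (n + 1) → ℝ} (hx : x ∈ orthantPart K ε) :
    ∑ i, |x i| * (volume (orthantPart (sect i K) fun j => ε (i.succAbove j))).toReal
      ≤ (n + 1 : ℝ) * (volume (orthantPart K ε)).toReal := by
  classical
  set S : (i : Fin (n + 1)) → Set (Fin n → ℝ) := fun i =>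
    orthantPart (sect i K) fun j => ε (i.succAbove j) with hS
  have hSc : ∀ i, IsCompact (S i) := fun i => isCompact_orthantPart (h.sect i).compact _
  set F : Finset (Fin (n + 1)) := Finset.univ.filter fun i => x i ≠ 0 with hF
  have hxo : ∀ k, 0 ≤ sgnB (ε k) * x k := mem_orthant.1 hx.2
  have key : ∀ i, ∀ p ∈ coneOn i x (S i), p ∈ orthantPart K ε ∧
      ∀ k, 0 ≤ (p k * x i - p i * x k) * (sgnB (ε i) * sgnB (ε k)) := by
    rintro i _ ⟨⟨s, z⟩, ⟨hs, hz⟩, rfl⟩
    have hzo : ∀ j, 0 ≤ sgnB (ε (i.succAbove j)) * z j := mem_orthant.1 hz.2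
    have hins : ∀ k, 0 ≤ sgnB (ε k) * (i.insertNth (0 : ℝ) z : Fin (n + 1) → ℝ) k := fun k => by
      refine Fin.succAboveCases i ?_ (fun j => ?_) k <;> simp [hzo]
    refine ⟨⟨h.convex hx.1 (hz.1 : i.insertNth 0 z ∈ K) hs.1 (sub_nonneg.2 hs.2) (add_sub_cancel _ _),
      mem_orthant.2 fun k => ?_⟩, fun k => ?_⟩
    · have e : sgnB (ε k) * (s • x + (1 - s) • (i.insertNth (0 : ℝ) z : Fin (n + 1) → ℝ)) k
          = s * (sgnB (ε k) * x k) + (1 - s) * (sgnB (ε k) * (i.insertNth (0 : ℝ) z : Fin (n + 1) → ℝ) k) := by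
        simp
        ring
      rw [e]
      exact add_nonneg (mul_nonneg hs.1 (hxo k)) (mul_nonneg (sub_nonneg.2 hs.2) (hins k))
    · have e : ((s • x + (1 - s) • (i.insertNth (0 : ℝ) z : Fin (n + 1) → ℝ)) k * x i
          - (s • x + (1 - s) • (i.insertNth (0 : ℝ) z : Fin (n + 1) → ℝ)) i * x k) * (sgnB (ε i) * sgnB (ε k))
          = (1 - s) * ((sgnB (ε i) * x i) * (sgnB (ε k) * (i.insertNth (0 : ℝ) z : Fin (n + 1) → ℝ) k)) := by
        simp
        ring
      simp only [] at e ⊢
      rw [e]
      exact mul_nonneg (sub_nonneg.2 hs.2) (mul_nonneg (hxo i) (hins k))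
  have hdisj : Set.Pairwise (↑F) (Function.onFun (AEDisjoint volume) fun i => coneOn i x (S i)) := by
    intro i hi j _ hij
    have hxi : x i ≠ 0 := (Finset.mem_filter.1 hi).2
    set φ : (Fin (n + 1) → ℝ) →ₗ[ℝ] ℝ :=
      x i • LinearMap.proj j - x j • LinearMap.proj i with hφ
    have hne : LinearMap.ker φ ≠ ⊤ := fun htop => by
      have : φ (Pi.single j 1) = 0 := LinearMap.mem_ker.1 (htop ▸ Submodule.mem_top)
      rw [hφ] at this
      simp [hij, hxi] at this
    refine measure_mono_null ?_ (Measure.addHaar_submodule volume _ hne)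
    rintro p ⟨h1, h2⟩
    have a := (key i p h1).2 j
    have b := (key j p h2).2 i
    have hne' : sgnB (ε i) * sgnB (ε j) ≠ 0 := by
      cases ε i <;> cases ε j <;> simp [sgnB]
    have e : (p i * x j - p j * x i) * (sgnB (ε j) * sgnB (ε i))
        = -((p j * x i - p i * x j) * (sgnB (ε i) * sgnB (ε j))) := by ring
    rw [e] at b
    have h0 : (p j * x i - p i * x j) * (sgnB (ε i) * sgnB (ε j)) = 0 := le_antisymm (by linarith) a
    have h1' := (mul_eq_zero.1 h0).resolve_right hne'
    show φ p = 0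
    rw [hφ]
    simp
    linarith
  have hsum : ∑ i ∈ F, ENNReal.ofReal (|x i| / (n + 1)) * volume (S i) ≤ volume (orthantPart K ε) := by
    refine (Finset.sum_le_sum fun i _ => coneOn_volume i x (hSc i)).trans ?_
    rw [← measure_biUnion_finset₀ hdisj fun i _ => (isCompact_coneOn i x (hSc i)).measurableSet.nullMeasurableSet]
    exact measure_mono (iUnion₂_subset fun i _ p hp => (key i p hp).1)
  have hfin : ∀ i, volume (S i) ≠ ⊤ := fun i => (hSc i).measure_lt_top.ne
  have h2 := ENNReal.toReal_mono (isCompact_orthantPart h.compact ε).measure_lt_top.ne hsum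
  rw [ENNReal.toReal_sum fun i _ => ENNReal.mul_ne_top ENNReal.ofReal_ne_top (hfin i)] at h2
  have e : ∀ i ∈ F, (ENNReal.ofReal (|x i| / (n + 1)) * volume (S i)).toReal
      = |x i| * (volume (S i)).toReal / (n + 1) := fun i _ => by
    rw [ENNReal.toReal_mul, ENNReal.toReal_ofReal (by positivity)]
    ring
  rw [Finset.sum_congr rfl e, ← Finset.sum_div, div_le_iff₀ (by positivity)] at h2
  have e2 : ∑ i ∈ F, |x i| * (volume (S i)).toReal = ∑ i, |x i| * (volume (S i)).toReal :=
    Finset.sum_filter_of_ne fun i _ hne h0 => hne (by simp [h0])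
  rw [e2] at h2
  linarith

end Vale.Agent.P248
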