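import Mathlib

/-!
# Polar bodies, orthant pieces and balanced bodies
-/

namespace Vale.Agent.P248

open MeasureTheory

/-- The polar of `K`: all `y` with `∑ i, y i * x i ≤ 1` for every `x ∈ K`. -/
def polarBody {n : ℕ} (K : Set (Fin n → ℝ)) : Set (Fin n → ℝ) :=
  {y | ∀ x ∈ K, ∑ i, y i * x i ≤ 1}

/-- The part of `K` in the closed orthant with signs given by `ε`. -/
def orthantPart {n : ℕ} (K : Set (Fin n → ℝ)) (ε : Fin n → Bool) : Set (Fin n → ℝ) :=
  K ∩ {x | ∀ i, if ε i then 0 ≤ x i else x i ≤ 0}

/-- The section of `K` by the hyperplane of vanishing `i`-th coordinate, in the other coordinates. -/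
def sect {n : ℕ} (i : Fin (n + 1)) (K : Set (Fin (n + 1) → ℝ)) : Set (Fin n → ℝ) :=
  {z | i.insertNth 0 z ∈ K}

/-- The coordinate hyperplanes cut `K`, and recursively each of its coordinate sections, into
pieces of equal volume. -/
def Balanced : (n : ℕ) → Set (Fin n → ℝ) → Prop
  | 0, _ => True
  | n + 1, K => (∀ ε ε', volume (orthantPart K ε) = volume (orthantPart K ε')) ∧
      ∀ i, Balanced n (sect i K)

end Vale.Agent.P248
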