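import Vale.Agent.P248.Main

/-!
# Bodies invariant under even sign changes and one odd signed permutation are balanced
-/

namespace Vale.Agent.P248

open MeasureTheory Set

variable {n : ℕ}

/-- The sign changed in the coordinates `i` and `j`. -/
def flip2 (i j : Fin n) (x : Fin n → ℝ) : Fin n → ℝ := fun k => if k = i ∨ k = j then -x k else x k

/-- Invariance under simultaneous sign change of any two coordinates. -/
def EvenSignInvariant (K : Set (Fin n → ℝ)) : Prop :=
  ∀ i j, i ≠ j → ∀ x ∈ K, flip2 i j x ∈ K

/-- The parity of an orthant, as the product of its signs. -/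
def parity (ε : Fin n → Bool) : ℝ := ∏ k, sgnB (ε k)

lemma parity_sq (ε : Fin n → Bool) : parity ε * parity ε = 1 := by
  rw [parity, ← Finset.prod_mul_distrib]
  exact Finset.prod_eq_one fun k _ => sgnB_sq _

lemma orthant_flip {K : Set (Fin (n + 1) → ℝ)} (hK : IsCompact K) (he : EvenSignInvariant K)
    {j : Fin (n + 1)} (hj : j ≠ 0) (ε : Fin (n + 1) → Bool) :
    volume (orthantPart K ε) ≤
      volume (orthantPart K fun k => if k = 0 ∨ k = j then !ε k else ε k) := by
  refine orthant_le hK 1 (fun k => decide (¬(k = 0 ∨ k = j))) (fun x hx => ?_) ε _ fun k => ?_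
  · convert he 0 j (Ne.symm hj) x hx using 1
    funext k
    by_cases h : k = 0 ∨ k = j <;> simp [flip2, h, sgnB]
  · by_cases h : k = 0 ∨ k = j <;> cases hεk : ε k <;> simp [h, hεk, sgnB]

lemma orthant_canon {K : Set (Fin (n + 1) → ℝ)} (hK : IsCompact K) (he : EvenSignInvariant K)
    (ε : Fin (n + 1) → Bool) : ∀ F : Finset (Fin (n + 1)), (0 : Fin (n + 1)) ∉ F →
    (∀ k, k ≠ 0 → k ∉ F → ε k = true) → ∀ b : Bool, sgnB b = parity ε →
    volume (orthantPart K ε) = volume (orthantPart K fun k => if k = 0 then b else true) := by
  intro F
  induction F using Finset.induction_on generalizing ε with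
  | empty =>
    intro _ h b hb
    have e : ε = fun k => if k = 0 then b else true := by
      funext k
      rcases eq_or_ne k 0 with rfl | hk
      · have hp : parity ε = sgnB (ε 0) := by
          refine Finset.prod_eq_single (0 : Fin (n + 1)) (fun k _ hk => ?_) (by simp)
          rw [h k hk (Finset.notMem_empty k)]
          simp [sgnB]
        rw [hp] at hb
        simp only [if_true]
        cases hε : ε 0 <;> cases b <;> first | rfl | (rw [hε] at hb; norm_num [sgnB] at hb)
      · simp [hk, h k hk (Finset.notMem_empty k)]
    rw [e]
  | insert a F haF ih =>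
    intro h0 h b hb
    rw [Finset.mem_insert, not_or] at h0
    have ha : a ≠ 0 := Ne.symm h0.1
    cases hεa : ε a
    · set ε' : Fin (n + 1) → Bool := fun k => if k = 0 ∨ k = a then !ε k else ε k with hε'
      have h1 : volume (orthantPart K ε) = volume (orthantPart K ε') := by
        refine le_antisymm (orthant_flip hK he ha ε) ((orthant_flip hK he ha ε').trans (le_of_eq ?_))
        congr 2
        funext k
        by_cases hk : k = 0 ∨ k = a <;> simp [hε', hk]
      rw [h1]
      refine ih ε' h0.2 (fun k hk hkF => ?_) b ?_
      · rcases eq_or_ne k a with rfl | hka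
        · simp [hε', hεa]
        · simp [hε', hk, hka, h k hk (by simp [hka, hkF])]
      · rw [hb, parity, parity]
        have key : ∀ η : Fin (n + 1) → Bool, ∏ k, sgnB (η k)
            = sgnB (η 0) * sgnB (η a) * ∏ k ∈ (Finset.univ.erase 0).erase a, sgnB (η k) := fun η => by
          rw [← Finset.mul_prod_erase _ _ (Finset.mem_univ (0 : Fin (n + 1))),
            ← Finset.mul_prod_erase _ _ (Finset.mem_erase.2 ⟨ha, Finset.mem_univ a⟩)]
          ring
        have e : ∏ k ∈ (Finset.univ.erase 0).erase a, sgnB (ε' k)
            = ∏ k ∈ (Finset.univ.erase 0).erase a, sgnB (ε k) :=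
          Finset.prod_congr rfl fun k hk => by
            rw [Finset.mem_erase, Finset.mem_erase] at hk
            simp [hε', hk.1, hk.2.1]
        rw [key ε, key ε', e]
        simp [hε', sgnB_not]
    · refine ih ε h0.2 (fun k hk hkF => ?_) b hb
      rcases eq_or_ne k a with rfl | hka
      · exact hεa
      · exact h k hk (by simp [hka, hkF])

/-- Invariance under even sign changes and under one signed permutation with an odd number of
sign changes implies balance. -/
theorem balanced_of_evenSignInvariant {K : Set (Fin n → ℝ)} (hK : IsCompact K)
    (he : EvenSignInvariant K) (σ : Equiv.Perm (Fin n)) (s : Fin n → Bool)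
    (hodd : ∏ k, sgnB (s k) = -1) (hinv : ∀ x ∈ K, (fun k => sgnB (s k) * x (σ k)) ∈ K) :
    Balanced n K := by
  cases n with
  | zero => trivial
  | succ n =>
    refine ⟨?_, fun i => balanced_of_signInvariant n _ ?_ fun j z hz => ?_⟩
    · have hcan : ∀ (ε : Fin (n + 1) → Bool) (b : Bool), sgnB b = parity ε →
          volume (orthantPart K ε) = volume (orthantPart K fun k => if k = 0 then b else true) :=
        fun ε => orthant_canon hK he ε (Finset.univ.erase 0) (Finset.notMem_erase _ _)
          fun k hk hk2 => absurd (Finset.mem_erase.2 ⟨hk, Finset.mem_univ k⟩) hk2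
      have hswap : ∀ b : Bool, volume (orthantPart K fun k => if k = 0 then b else true) ≤
          volume (orthantPart K fun k => if k = 0 then !b else true) := by
        intro b
        set ε : Fin (n + 1) → Bool := fun k => if k = 0 then b else true with hε
        set ε' : Fin (n + 1) → Bool := fun k => decide (sgnB (s k) * sgnB (ε (σ k)) = 1) with hε'
        have hs' : ∀ k, sgnB (ε' k) = sgnB (s k) * sgnB (ε (σ k)) := fun k => by
          rw [hε']
          cases hsk : s k <;> cases hek : ε (σ k) <;> norm_num [sgnB, hsk, hek]
        refine (orthant_le hK σ s hinv ε ε' hs').trans (le_of_eq (hcan ε' (!b) ?_))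
        have hp : parity ε = sgnB b := by
          rw [parity, Finset.prod_eq_single (0 : Fin (n + 1))]
          · simp [hε]
          · intro k _ hk
            simp [hε, hk, sgnB]
          · simp
        rw [parity, Finset.prod_congr rfl fun k _ => hs' k, Finset.prod_mul_distrib, hodd,
          Equiv.prod_comp σ (fun k => sgnB (ε k)), ← parity, hp, sgnB_not]
        ring
      have hsame : volume (orthantPart K fun k => if k = 0 then false else true)
          = volume (orthantPart K fun k : Fin (n + 1) => if k = 0 then true else true) :=
        le_antisymm (hswap false) (hswap true)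
      have hall : ∀ ε, volume (orthantPart K ε)
          = volume (orthantPart K fun k : Fin (n + 1) => if k = 0 then true else true) := by
        intro ε
        rcases mul_self_eq_one_iff.1 (parity_sq ε) with h | h
        · exact hcan ε true (by rw [h]; simp [sgnB])
        · exact (hcan ε false (by rw [h]; simp [sgnB])).trans hsame
      exact fun ε ε' => (hall ε).trans (hall ε').symm
    · exact IsCompact.of_isClosed_subset (hK.image (continuous_drop i))
        (hK.isClosed.preimage ((continuous_insertNth' i).comp
          (by fun_prop : Continuous fun z : Fin n → ℝ => ((0 : ℝ), z))))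
        fun z hz => ⟨_, hz, funext fun j => by simp [drop]⟩
    · show i.insertNth 0 (Function.update z j (-z j)) ∈ K
      convert he i (i.succAbove j) (Fin.succAbove_ne i j).symm _ (hz : i.insertNth 0 z ∈ K) using 1
      funext k
      refine Fin.succAboveCases i ?_ (fun l => ?_) k
      · simp [flip2]
      · rcases eq_or_ne l j with rfl | hl
        · simp [flip2]
        · simp [flip2, hl, Fin.succAbove_ne]

end Vale.Agent.P248
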