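import Vale.Agent.P248.Cones
import Vale.Agent.P248.Box

/-!
# The Mahler inequality for balanced bodies
-/

namespace Vale.Agent.P248

open MeasureTheory Set Metric
open scoped Pointwise

variable {n : ℕ}

lemma iUnion_orthantPart (K : Set (Fin n → ℝ)) : ⋃ ε, orthantPart K ε = K := by
  refine Subset.antisymm (iUnion_subset fun ε => inter_subset_left) fun x hx => ?_
  refine mem_iUnion.2 ⟨fun i => decide (0 ≤ x i), hx, fun i => ?_⟩
  by_cases h : 0 ≤ x i
  · simp [h]
  · simp [h, (not_le.1 h).le]

lemma coord_null (i : Fin n) : volume {x : Fin n → ℝ | x i = 0} = 0 := by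
  have hne : LinearMap.ker (LinearMap.proj i : (Fin n → ℝ) →ₗ[ℝ] ℝ) ≠ ⊤ := fun htop => by
    have : (Pi.single i (1 : ℝ) : Fin n → ℝ) ∈ LinearMap.ker (LinearMap.proj i : (Fin n → ℝ) →ₗ[ℝ] ℝ) :=
      htop ▸ Submodule.mem_top
    simp at this
  exact Measure.addHaar_submodule volume _ hne

lemma volume_eq_sum_orthants {K : Set (Fin n → ℝ)} (hK : IsCompact K) :
    volume K = ∑ ε, volume (orthantPart K ε) := by
  conv_lhs => rw [← iUnion_orthantPart K]
  rw [measure_iUnion₀ ?_ fun ε => (isCompact_orthantPart hK ε).measurableSet.nullMeasurableSet,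
    tsum_fintype]
  intro ε ε' hne
  obtain ⟨i, hi⟩ := Function.ne_iff.1 hne
  refine measure_mono_null ?_ (coord_null i)
  rintro x ⟨⟨-, h1⟩, ⟨-, h2⟩⟩
  have a := h1 i
  have b := h2 i
  show x i = 0
  cases h : ε i <;> cases h' : ε' i <;> simp_all
  all_goals linarith

lemma orthantPart_eq_div {K : Set (Fin n → ℝ)} (hK : IsCompact K) (hb : Balanced n K)
    (ε : Fin n → Bool) : (volume (orthantPart K ε)).toReal = (volume K).toReal / 2 ^ n := by
  have heq : ∀ ε', volume (orthantPart K ε') = volume (orthantPart K ε) := by
    cases n with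
    | zero => intro ε'; rw [Subsingleton.elim ε' ε]
    | succ n => exact fun ε' => hb.1 ε' ε
  rw [volume_eq_sum_orthants hK, Finset.sum_congr rfl fun ε' _ => heq ε']
  simp

lemma SymBody.volume_pos {K : Set (Fin n → ℝ)} (h : SymBody n K) : 0 < (volume K).toReal :=
  ENNReal.toReal_pos ((Measure.measure_pos_of_nonempty_interior _ h.interior_ne).ne')
    h.compact.measure_lt_top.ne

/-- The symmetric Mahler inequality for balanced bodies. -/
theorem mahler_balanced : ∀ (n : ℕ) (K : Set (Fin n → ℝ)), SymBody n K → Balanced n K →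
    4 ^ n / (n.factorial : ℝ) ≤ (volume K).toReal * (volume (polarBody K)).toReal := by
  intro n
  induction n with
  | zero =>
    intro K hK _
    have h1 : K = univ := by
      refine eq_univ_of_forall fun x => ?_
      rw [Subsingleton.elim x 0]
      exact hK.zero_mem
    have h2 : polarBody K = univ := eq_univ_of_forall fun y x _ => by simp
    rw [h2, h1]
    simp [volume_pi, Measure.pi_of_empty]
  | succ n ih =>
    intro K hK hb
    set L := polarBody K with hL
    set V := (volume K).toReal with hV
    have hVp : 0 < V := hK.volume_pos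
    have hn : (0 : ℝ) < n + 1 := by positivity
    set c : Fin (n + 1) → ℝ := fun i => 2 * (volume (sect i K)).toReal / ((n + 1) * V) with hc
    have hc0 : ∀ i, 0 ≤ c i := fun i => by positivity
    have hbound : ∀ x ∈ K, ∑ i, c i * |x i| ≤ 1 := by
      intro x hx
      set ε : Fin (n + 1) → Bool := fun i => decide (0 ≤ x i) with hε
      have hxε : x ∈ orthantPart K ε := ⟨hx, fun i => by
        by_cases h : 0 ≤ x i
        · simp [hε, h]
        · simp [hε, h, (not_le.1 h).le]⟩
      have h := cones_le hK ε hxε
      rw [orthantPart_eq_div hK.compact hb, Finset.sum_congr rfl fun i _ => by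
        rw [orthantPart_eq_div (hK.sect i).compact (hb.2 i)]] at h
      have e : ∑ i, c i * |x i| = (∑ i, |x i| * ((volume (sect i K)).toReal / 2 ^ n))
          * (2 ^ (n + 1) / ((n + 1) * V)) := by
        rw [Finset.sum_mul]
        refine Finset.sum_congr rfl fun i _ => ?_
        rw [hc, pow_succ]
        field_simp
      rw [e]
      refine (mul_le_mul_of_nonneg_right h (by positivity)).trans (le_of_eq ?_)
      rw [← hV]
      field_simp
    have hbox : ∀ v : Fin (n + 1) → ℝ, (∀ i, |v i| ≤ c i) → v ∈ L := fun v hv x hx =>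
      calc ∑ i, v i * x i ≤ ∑ i, c i * |x i| := Finset.sum_le_sum fun i _ =>
            (le_abs_self _).trans (by rw [abs_mul]; exact mul_le_mul_of_nonneg_right (hv i) (abs_nonneg _))
        _ ≤ 1 := hbound x hx
    have hLc := hK.isCompact_polar
    have h := box_le hLc (convex_polarBody K) hc0 hbox
    have hstep : ∀ i, 4 ^ n / (n.factorial : ℝ) * (2 / ((n + 1) * V))
        ≤ c i * (volume (drop i '' L)).toReal := by
      intro i
      have h1 := ih _ (hK.sect i) (hb.2 i)
      have h2 : (volume (polarBody (sect i K))).toReal ≤ (volume (drop i '' L)).toReal :=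
        ENNReal.toReal_mono (hLc.image (continuous_drop i)).measure_lt_top.ne
          (measure_mono (polar_sect_subset hK i))
      have h3 := h1.trans (mul_le_mul_of_nonneg_left h2 ENNReal.toReal_nonneg)
      refine (mul_le_mul_of_nonneg_right h3 (by positivity)).trans (le_of_eq ?_)
      rw [hc]
      field_simp
    have hsum : (n + 1 : ℝ) * (4 ^ n / (n.factorial : ℝ) * (2 / ((n + 1) * V)))
        ≤ ∑ i, c i * (volume (drop i '' L)).toReal := by
      refine le_trans (le_of_eq ?_) (Finset.sum_le_sum fun i _ => hstep i)
      simp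
    rw [Nat.factorial_succ, pow_succ]
    push_cast
    rw [← hL] at h
    field_simp at hsum ⊢
    have h2 := mul_le_mul_of_nonneg_left h (by positivity : (0 : ℝ) ≤ (n.factorial : ℝ) * V)
    nlinarith

/-- The transpose of a linear map for the standard pairing. -/
lemma polar_image (T : (Fin n → ℝ) ≃ₗ[ℝ] (Fin n → ℝ)) (K : Set (Fin n → ℝ)) :
    polarBody (T '' K)
      = Matrix.toLin' (LinearMap.toMatrix' (T : (Fin n → ℝ) →ₗ[ℝ] (Fin n → ℝ))).transpose ⁻¹' polarBody K := by
  set A := LinearMap.toMatrix' (T : (Fin n → ℝ) →ₗ[ℝ] (Fin n → ℝ)) with hA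
  ext y
  have key : ∀ x : Fin n → ℝ, ∑ i, y i * T x i = ∑ i, Matrix.toLin' A.transpose y i * x i := fun x => by
    have e : T x = A.mulVec x := by
      rw [hA, LinearMap.toMatrix'_mulVec]
      rfl
    rw [e, Matrix.toLin'_apply, Matrix.mulVec_transpose]
    exact Matrix.dotProduct_mulVec y A x
  simp only [polarBody, mem_preimage, mem_setOf_eq, forall_mem_image, key]

/-- The inequality for linear images of balanced bodies. -/
theorem mahler_linear_balanced (n : ℕ) (K : Set (Fin n → ℝ)) (hK : SymBody n K)
    (T : (Fin n → ℝ) ≃ₗ[ℝ] (Fin n → ℝ)) (hT : Balanced n (T '' K)) :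
    4 ^ n / (n.factorial : ℝ) ≤ (volume K).toReal * (volume (polarBody K)).toReal := by
  set f : (Fin n → ℝ) →ₗ[ℝ] (Fin n → ℝ) := (T : (Fin n → ℝ) →ₗ[ℝ] (Fin n → ℝ)) with hf
  have hTK : SymBody n (T '' K) := by
    refine ⟨hK.compact.image (LinearMap.continuous_of_finiteDimensional f), hK.convex.linear_image f,
      ?_, ?_⟩
    · rintro _ ⟨x, hx, rfl⟩
      exact ⟨-x, hK.symm x hx, map_neg _ _⟩
    · exact (hK.interior_ne.image T).mono
        (T.toContinuousLinearEquiv.toHomeomorph.image_interior K).subset
  have h := mahler_balanced n _ hTK hT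
  have hdet : LinearMap.det f ≠ 0 := (LinearEquiv.isUnit_det' T).ne_zero
  set U := Matrix.toLin' (LinearMap.toMatrix' f).transpose with hU
  have hUdet : LinearMap.det U = LinearMap.det f := by
    rw [hU, LinearMap.det_toLin', Matrix.det_transpose, LinearMap.det_toMatrix']
  have hpol : volume (polarBody (T '' K)) = ENNReal.ofReal |(LinearMap.det f)⁻¹| * volume (polarBody K) := by
    rw [polar_image, ← hU, Measure.addHaar_preimage_linearMap volume (hUdet ▸ hdet), hUdet]
  rw [show T '' K = f '' K from rfl] at h hpol
  rw [hpol, Measure.addHaar_image_linearMap, ENNReal.toReal_mul, ENNReal.toReal_mul,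
    ENNReal.toReal_ofReal (abs_nonneg _), ENNReal.toReal_ofReal (abs_nonneg _), abs_inv] at h
  refine h.trans (le_of_eq ?_)
  field_simp

/-- Invariance under changing the sign of every coordinate separately. -/
def SignInvariant (K : Set (Fin n → ℝ)) : Prop :=
  ∀ i, ∀ x ∈ K, Function.update x i (-x i) ∈ K

lemma measurePreserving_monomial (σ : Equiv.Perm (Fin n)) (s : Fin n → Bool) :
    MeasurePreserving (fun (x : Fin n → ℝ) k => sgnB (s k) * x (σ k)) volume volume := by
  have h1 : MeasurePreserving (fun (x : Fin n → ℝ) k => sgnB (s k) * x k) volume volume := by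
    refine volume_preserving_pi (f := fun k t => sgnB (s k) * t) fun k => ?_
    cases s k
    · simpa [sgnB, Pi.neg_def] using Measure.measurePreserving_neg (volume : Measure ℝ)
    · simp only [sgnB, if_true, one_mul]
      exact MeasurePreserving.id _
  have h2 : MeasurePreserving (fun (x : Fin n → ℝ) k => x (σ k)) volume volume := by
    have := volume_measurePreserving_piCongrLeft (fun _ : Fin n => ℝ) σ.symm
    convert this using 1
    funext x k
    rw [MeasurableEquiv.coe_piCongrLeft, Equiv.piCongrLeft_apply_eq_cast]
    simp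
  exact h1.comp h2

/-- A signed permutation mapping `K` into itself maps orthant pieces into orthant pieces. -/
lemma orthant_le {K : Set (Fin n → ℝ)} (hK : IsCompact K) (σ : Equiv.Perm (Fin n)) (s : Fin n → Bool)
    (hinv : ∀ x ∈ K, (fun k => sgnB (s k) * x (σ k)) ∈ K) (ε ε' : Fin n → Bool)
    (hε : ∀ k, sgnB (ε' k) = sgnB (s k) * sgnB (ε (σ k))) :
    volume (orthantPart K ε) ≤ volume (orthantPart K ε') := by
  rw [← (measurePreserving_monomial σ s).measure_preimage
    (isCompact_orthantPart hK ε').measurableSet.nullMeasurableSet]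
  refine measure_mono fun x hx => ⟨hinv x hx.1, mem_orthant.2 fun k => ?_⟩
  rw [hε]
  have h := mem_orthant.1 hx.2 (σ k)
  calc (0 : ℝ) ≤ sgnB (ε (σ k)) * x (σ k) := h
    _ = sgnB (s k) * sgnB (s k) * (sgnB (ε (σ k)) * x (σ k)) := by rw [sgnB_sq, one_mul]
    _ = _ := by ring

lemma sgnB_not (b : Bool) : sgnB (!b) = -sgnB b := by cases b <;> simp [sgnB]

/-- Bodies invariant under all coordinate sign changes are balanced. -/
theorem balanced_of_signInvariant : ∀ (n : ℕ) (K : Set (Fin n → ℝ)), IsCompact K →
    SignInvariant K → Balanced n K := by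
  intro n
  induction n with
  | zero => intro K _ _; trivial
  | succ n ih =>
    intro K hK hs
    refine ⟨?_, fun i => ih _ ?_ fun j z hz => ?_⟩
    · have hall : ∀ (s : Fin (n + 1) → Bool), ∀ x ∈ K, (fun k => sgnB (s k) * x k) ∈ K := by
        intro s x hx
        have hF : ∀ F : Finset (Fin (n + 1)), (fun k => if k ∈ F then sgnB (s k) * x k else x k) ∈ K := by
          intro F
          induction F using Finset.induction_on with
          | empty => simpa using hx
          | insert a F ha ihF =>
            cases hsa : s a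
            · convert hs a _ ihF using 1
              funext k
              rcases eq_or_ne k a with rfl | hk
              · simp [ha, hsa, sgnB]
              · simp [hk]
            · convert ihF using 1
              funext k
              rcases eq_or_ne k a with rfl | hk
              · simp [ha, hsa, sgnB]
              · simp [hk]
        simpa using hF Finset.univ
      have hle : ∀ ε ε', volume (orthantPart K ε) ≤ volume (orthantPart K ε') := fun ε ε' =>
        orthant_le hK 1 (fun k => decide (ε k = ε' k))
          (fun x hx => by simpa using hall _ x hx) ε ε' fun k => by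
            cases hεk : ε k <;> cases hε' : ε' k <;> simp [sgnB, hεk, hε']
      exact fun ε ε' => le_antisymm (hle ε ε') (hle ε' ε)
    · exact IsCompact.of_isClosed_subset (hK.image (continuous_drop i))
        (hK.isClosed.preimage ((continuous_insertNth' i).comp
          (by fun_prop : Continuous fun z : Fin n → ℝ => ((0 : ℝ), z))))
        fun z hz => ⟨_, hz, funext fun j => by simp [drop]⟩
    · show i.insertNth 0 (Function.update z j (-z j)) ∈ K
      convert hs (i.succAbove j) _ (hz : i.insertNth 0 z ∈ K) using 1
      funext k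
      refine Fin.succAboveCases i ?_ (fun l => ?_) k
      · simp [(Fin.succAbove_ne i j).symm]
      · rcases eq_or_ne l j with rfl | hl
        · simp
        · simp [hl]

end Vale.Agent.P248
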